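import Vale.Agent.P273.H948.Moves
import Vale.Agent.P273.H469.Sec

/-!
P273: the state after the insertion of a label at a node (move M3).
-/

noncomputable section

open Set Filter Topology OnePoint

namespace Vale.Agent.P273.H948

open Vale.Agent.P273.H469

variable {m : ℕ}

/-- A section may be changed outside the open base. -/
theorem IsSec.congr {S : Surf m} {B : Set (Fin m → ℂ)} {σ σ' : (Fin m → ℂ) → S.X}
    (h : IsSec S B σ) (hB : IsOpen B) (e : ∀ b ∈ B, σ' b = σ b) : IsSec S B σ' := by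
  intro b hb
  obtain ⟨h1, h2, h3⟩ := h b hb
  have he : σ' =ᶠ[𝓝 b] σ := by
    filter_upwards [hB.mem_nhds hb] with b' hb' using e b' hb'
  refine ⟨by rw [e b hb]; exact h1, h2.congr he.symm, ?_⟩
  intro f hf
  rw [e b hb] at hf
  refine (h3 f hf).congr ?_
  filter_upwards [he] with b' hb'
  rw [hb']

end Vale.Agent.P273.H948

namespace Vale.Agent.P273.H469.NodeData

open Vale.Agent.P273.H948

variable {m : ℕ} {S : Surf m} (D : NodeData S)

open Classical in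
/-- The point of the modified surface over `x` with the value `a` (if there is one). -/
def up (x : S.X) (a : OnePoint ℂ) : D.modif.T.X :=
  if h : D.P (x, a) then D.modif.ιN (⟨(x, a), h⟩ : D.Sp) else (NodeData.fib (D := D)).lift x

variable {D}

theorem up_of {x : S.X} {a : OnePoint ℂ} (h : D.P (x, a)) :
    D.up x a = D.modif.ιN (⟨(x, a), h⟩ : D.Sp) := dif_pos h

theorem up_a {y : D.Sp} : D.up (D.ρ y) (D.a y) = D.modif.ιN y := up_of y.2

/-- the contraction of `up` -/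
theorem r_up (x : S.X) (a : OnePoint ℂ) : D.modif.r (D.up x a) = x := by
  by_cases h : D.P (x, a)
  · rw [up_of h]
    exact D.modif.rN (⟨(x, a), h⟩ : D.Sp)
  · have : D.up x a = (NodeData.fib (D := D)).lift x := dif_neg h
    rw [this, Modif.Fib.r_lift]

/-- the condition for a section and a function on the base -/
theorem P_sec {B : Set (Fin m → ℂ)} {σ : (Fin m → ℂ) → S.X} (hσ : IsSec S B σ)
    (hU : ∀ b ∈ B, σ b ∈ D.U) {μ : (Fin m → ℂ) → ℂ}
    (h1 : ∀ b ∈ B, D.u (σ b) = D.τ₀ b * μ b) (h2 : ∀ b ∈ B, μ b * D.v (σ b) = D.τ₁ b)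
    {b : Fin m → ℂ} (hb : b ∈ B) : D.P (σ b, (μ b : OnePoint ℂ)) := by
  refine ⟨hU b hb, rel3_coe ?_ ?_⟩
  · change D.u (σ b) = D.τ₀ (S.π (σ b)) * μ b
    rw [(hσ b hb).1]; exact h1 b hb
  · change μ b * D.v (σ b) = D.τ₁ (S.π (σ b))
    rw [(hσ b hb).1]; exact h2 b hb

/-- `up` of a section is a section -/
theorem sec_up {B : Set (Fin m → ℂ)} (hB : IsOpen B) (hne : B.Nonempty)
    {σ : (Fin m → ℂ) → S.X} (hσ : IsSec S B σ) (hU : ∀ b ∈ B, σ b ∈ D.U)
    {μ : (Fin m → ℂ) → ℂ} (hμ : ∀ b ∈ B, AnalyticAt ℂ μ b)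
    (h1 : ∀ b ∈ B, D.u (σ b) = D.τ₀ b * μ b) (h2 : ∀ b ∈ B, μ b * D.v (σ b) = D.τ₁ b) :
    IsSec D.modif.T B fun b => D.up (σ b) (μ b : OnePoint ℂ) := by
  obtain ⟨σ', hσ', e⟩ := NodeData.sec hB hne hσ hU hμ h1 h2
  refine (D.modif.secN hσ').congr hB fun b hb => ?_
  obtain ⟨e1, e2⟩ := e b hb
  change D.up (σ b) (μ b : OnePoint ℂ) = D.modif.ιN (σ' b)
  rw [← e1, ← e2]
  exact up_a

end Vale.Agent.P273.H469.NodeData

namespace Vale.Agent.P273.H948

open Vale.Agent.P273.H469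

variable {m : ℕ} {X₀ : Surf m} {L : Type} {P : L → (Fin m → ℂ) → X₀.X} {A : Set L}
  {σ : State X₀ P A} {j : L}

namespace NodeMove

variable (N : NodeMove σ j)

/-- the fibres over the centre are connected -/
theorem fib : N.D.modif.Fib := NodeData.fib

open Classical in
/-- the new positions -/
def s' (k : L) (b : Fin m → ℂ) : N.D.modif.T.X :=
  if k ∈ N.K then N.D.up (σ.s k b) (N.α k b : OnePoint ℂ) else N.fib.lift (σ.s k b)

variable {N}

theorem s'_K {k : L} (hk : k ∈ N.K) (b : Fin m → ℂ) :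
    N.s' k b = N.D.up (σ.s k b) (N.α k b : OnePoint ℂ) := if_pos hk

theorem s'_not {k : L} (hk : k ∉ N.K) (b : Fin m → ℂ) : N.s' k b = N.fib.lift (σ.s k b) :=
  if_neg hk

variable (N)

theorem r_s' (k : L) (b : Fin m → ℂ) : N.D.modif.r (N.s' k b) = σ.s k b := by
  by_cases hk : k ∈ N.K
  · rw [s'_K hk, NodeData.r_up]
  · rw [s'_not hk, Modif.Fib.r_lift]

/-- the condition at the carried labels -/
theorem P_K {k : L} (hk : k ∈ N.K) {b : Fin m → ℂ} (hb : b ∈ σ.F.B) :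
    N.D.P (σ.s k b, (N.α k b : OnePoint ℂ)) :=
  NodeData.P_sec (σ.sec k) (N.mem k hk) (N.rel_u k hk) (N.rel_v k hk) hb

/-- the carried labels on the new component -/
theorem s'_mem {k : L} (hk : k ∈ N.K) {b : Fin m → ℂ} (hb : b ∈ σ.F.B) :
    ∃ y : N.D.Sp, N.s' k b = N.D.modif.ιN y ∧ N.D.ρ y = σ.s k b ∧
      N.D.a y = (N.α k b : OnePoint ℂ) :=
  ⟨⟨_, N.P_K hk hb⟩, by rw [s'_K hk, NodeData.up_of (N.P_K hk hb)], rfl, rfl⟩

/-- the centre consists of positions of `j` -/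
theorem eq_of_Z {x : σ.F.S.X} (hx : x ∈ N.D.Z) : x = σ.s j (σ.F.S.π x) := by
  obtain ⟨h1, h2, h3, h4, h5⟩ := hx
  have hb : σ.F.S.π x ∈ σ.F.B := σ.F.mem x
  have e1 := N.rel_u j N.jK _ hb
  have e2 := N.rel_v j N.jK _ hb
  rw [N.α_j, mul_one, h4] at e1
  rw [N.α_j, one_mul, h5] at e2
  refine N.D.mod.inj h1 (N.mem j N.jK _ hb) ?_
  have e3 : σ.F.S.π (σ.s j (σ.F.S.π x)) = σ.F.S.π x := (σ.sec j _ hb).1
  simp only [Emap, h2, h3, e1, e2, e3]

/-- the centre -/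
theorem mem_Z {x : σ.F.S.X} : x ∈ N.D.Z ↔
    x = σ.s j (σ.F.S.π x) ∧ N.D.τ₀ (σ.F.S.π x) = 0 ∧ N.D.τ₁ (σ.F.S.π x) = 0 := by
  constructor
  · intro hx
    exact ⟨N.eq_of_Z hx, hx.2.2.2.1, hx.2.2.2.2⟩
  · rintro ⟨h1, h4, h5⟩
    have hb : σ.F.S.π x ∈ σ.F.B := σ.F.mem x
    have e1 := N.rel_u j N.jK _ hb
    have e2 := N.rel_v j N.jK _ hb
    rw [N.α_j, mul_one, ← h1, h4] at e1
    rw [N.α_j, one_mul, ← h1, h5] at e2
    have h0 := N.mem j N.jK _ hb
    rw [← h1] at h0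
    exact ⟨h0, e1, e2, h4, h5⟩

/-- the other labels are off the centre -/
theorem not_mem_Z {k : L} (hk : k ∉ N.K) {b : Fin m → ℂ} (hb : b ∈ σ.F.B) :
    σ.s k b ∉ N.D.Z := by
  intro h
  have h1 := N.eq_of_Z h
  rw [(σ.sec k b hb).1] at h1
  exact N.off k hk b hb h1

theorem s'_off {k : L} (hk : k ∉ N.K) {b : Fin m → ℂ} (hb : b ∈ σ.F.B) :
    N.s' k b = N.fib.lift (σ.s k b) ∧ σ.s k b ∉ N.D.Z := ⟨s'_not hk b, N.not_mem_Z hk hb⟩

/-- the new positions are sections -/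
theorem sec' (k : L) : IsSec N.D.modif.T σ.F.B (N.s' k) := by
  by_cases hk : k ∈ N.K
  · refine (NodeData.sec_up σ.F.openB ⟨N.c, N.mem_c⟩ (σ.sec k) (N.mem k hk) (N.α_an k hk)
      (N.rel_u k hk) (N.rel_v k hk)).congr σ.F.openB fun b _ => s'_K hk b
  · refine (N.fib.sec (σ.sec k) fun b hb => N.not_mem_Z hk hb).congr σ.F.openB fun b _ => ?_
    exact s'_not hk b

/-- smooth points of the new component -/
theorem smooth_K {k : L} (hk : k ∈ N.K) {b : Fin m → ℂ} (hb : b ∈ σ.F.B)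
    (h : N.α k b ≠ 0 ∨ N.D.v (σ.s k b) ≠ 0) : N.D.modif.T.SmoothAt (N.s' k b) := by
  obtain ⟨y, e, e1, e2⟩ := N.s'_mem hk hb
  rw [e]
  refine N.D.modif.smoothN (NodeData.smooth₁ (D := N.D) (y := y) ?_ ?_)
  · rw [e2]; exact OnePoint.coe_ne_infty _
  · rw [e1]
    refine h.imp (fun h => ?_) id
    change fv (N.D.a y) ≠ 0
    rw [e2, fv_coe]; exact h

theorem smooth_off {k : L} (hk : k ∉ N.K) {b : Fin m → ℂ} (hb : b ∈ σ.F.B)
    (h : σ.F.S.SmoothAt (σ.s k b)) : N.D.modif.T.SmoothAt (N.s' k b) := by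
  rw [s'_not hk]
  exact N.fib.smooth (N.not_mem_Z hk hb) h

theorem smooth_j {b : Fin m → ℂ} (hb : b ∈ σ.F.B) : N.D.modif.T.SmoothAt (N.s' j b) :=
  N.smooth_K N.jK hb (Or.inl (by rw [N.α_j]; exact one_ne_zero))

/-- **The state after the move M3.** -/
def state : State X₀ P (insert j A) :=
  σ.mod N.D.modif N.fib N.s' N.sec' (fun k b _ => N.r_s' k b) (insert j A)
    (by
      rintro k (rfl | hk) b hb
      · exact N.smooth_j hb
      · exact N.smooth_off (fun h => N.KA k h hk) hb (σ.smooth k hk b hb))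
    (by
      intro i hi k hk b hb e
      have e' : σ.s i b = σ.s k b := by rw [← N.r_s' i b, ← N.r_s' k b, e]
      rcases hi with rfl | hi <;> rcases hk with rfl | hk
      · rfl
      · exact absurd e'.symm (N.off k (fun h => N.KA k h hk) b hb)
      · exact absurd e' (N.off i (fun h => N.KA i h hi) b hb)
      · exact σ.inj i hi k hk b hb e')
    (by
      intro x hx h1 _
      have h2 := N.eq_of_Z hx
      refine N.node x hx.1 hx.2.1 hx.2.2.1 ?_
      have h3 : P j (σ.F.S.π x) = σ.r x := by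
        rw [← σ.rs j _ (σ.F.mem x), ← h2]
      rw [← h3]
      exact h1 j)

theorem state_F : N.state.F = σ.F.modify N.D.modif N.fib := rfl

theorem state_S : N.state.F.S = N.D.modif.T := rfl

theorem state_B : N.state.F.B = σ.F.B := rfl

theorem state_s (k : L) (b : Fin m → ℂ) : N.state.s k b = N.s' k b := rfl

theorem state_r (x : N.D.modif.T.X) : N.state.r x = σ.r (N.D.modif.r x) := rfl

end NodeMove

end Vale.Agent.P273.H948
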