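import Vale.Agent.P273.H996.NeckU

/-!
# P273, row ASY1: bounds of the derivative of the neck potential (helper996)

`est_main`: the bound of the derivative of `Un` for a class of size `(σ, s, β)`; then the three
types of classes: any, without period on the vanishing cycle, the class of the pair.
-/

open Set Metric Filter Complex
open scoped Topology Real

namespace Vale.Agent.P273.H996.NeckEst

open Vale.Agent.P273.H598.Sol Vale.Agent.P273.H598.Sol.Dat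

noncomputable section

/-- the right hand side for a class of size `(σ, s, β)` -/
def Rs (σ s β τ δ X a Y b : ℝ) : ℝ :=
  σ * (δ + X * a + Y * b + τ * (a + b)) + s * τ * (δ + (a + b)) + β * (δ + (a + b))

section real

variable {A σ s β τ δ X a Y b : ℝ}

lemma rr1 (hσ : 0 ≤ σ) (hX0 : 0 ≤ X) (ha : 0 ≤ a) (hY0 : 0 ≤ Y) (hb : 0 ≤ b) :
    σ * (δ + τ * (a + b)) + s * τ * (δ + (a + b)) + β * (δ + (a + b)) ≤
      Rs σ s β τ δ X a Y b := by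
  have e : Rs σ s β τ δ X a Y b = σ * (δ + τ * (a + b)) + s * τ * (δ + (a + b)) +
      β * (δ + (a + b)) + σ * (X * a + Y * b) := by
    rw [Rs]; ring
  rw [e]
  have : 0 ≤ σ * (X * a + Y * b) := by positivity
  linarith

lemma rr2 (hσ : 0 ≤ σ) (hs : 0 ≤ s) (hβ : 0 ≤ β) (hτ : 0 < τ) (hδ : 0 ≤ δ)
    (ha : 0 ≤ a) (hb : 0 ≤ b) :
    σ * (δ + X * a + Y * b) ≤ Rs σ s β τ δ X a Y b := by
  have e : Rs σ s β τ δ X a Y b = σ * (δ + X * a + Y * b) + (σ * (τ * (a + b)) +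
      s * τ * (δ + (a + b)) + β * (δ + (a + b))) := by
    rw [Rs]; ring
  rw [e]
  have : 0 ≤ σ * (τ * (a + b)) + s * τ * (δ + (a + b)) + β * (δ + (a + b)) := by positivity
  linarith

lemma rr4 (hA : 1 ≤ A) (hσ : 0 ≤ σ) (hs : 0 ≤ s) (hβ : 0 ≤ β) (hτ : 0 < τ) (hτ1 : τ ≤ 1)
    (hδ : 0 ≤ δ) (hX0 : 0 ≤ X) (ha : 0 ≤ a) (hY0 : 0 ≤ Y) (hb : 0 ≤ b) :
    (A * σ + s + 2 * β) * τ * (δ + (a + b)) ≤ 2 * A * Rs σ s β τ δ X a Y b := by
  have e6 := rr1 (s := s) (β := β) (τ := τ) (δ := δ) hσ hX0 ha hY0 hb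
  set R := Rs σ s β τ δ X a Y b
  set S := a + b with hS
  have hS0 : 0 ≤ S := by positivity
  have hA0 : 0 ≤ A := by linarith
  have e1 : (A * σ + s + 2 * β) * τ * (δ + S) = A * (σ * (τ * (δ + S))) + s * τ * (δ + S) +
      2 * (β * (τ * (δ + S))) := by ring
  have e2 : τ * (δ + S) ≤ δ + τ * S := by
    have : τ * δ ≤ δ := mul_le_of_le_one_left hδ hτ1
    linarith
  have e3 : σ * (τ * (δ + S)) ≤ σ * (δ + τ * S) := mul_le_mul_of_nonneg_left e2 hσ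
  have e4 : τ * (δ + S) ≤ δ + S := mul_le_of_le_one_left (by positivity) hτ1
  have e5 : β * (τ * (δ + S)) ≤ β * (δ + S) := mul_le_mul_of_nonneg_left e4 hβ
  have e7 : 0 ≤ s * τ * (δ + S) := by positivity
  have e8 : 0 ≤ β * (δ + S) := by positivity
  have e9 : A * (σ * (τ * (δ + S))) ≤ A * (σ * (δ + τ * S)) :=
    mul_le_mul_of_nonneg_left e3 hA0
  have e11 : A * (σ * (δ + τ * S) + s * τ * (δ + S) + β * (δ + S)) ≤ A * R :=
    mul_le_mul_of_nonneg_left e6 hA0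
  rw [mul_add, mul_add] at e11
  have e12 : s * τ * (δ + S) ≤ A * (s * τ * (δ + S)) := le_mul_of_one_le_left e7 hA
  have e13 : β * (δ + S) ≤ A * (β * (δ + S)) := le_mul_of_one_le_left e8 hA
  have e14 : 0 ≤ A * (σ * (δ + τ * S)) := by positivity
  have e15 : 0 ≤ A * (s * τ * (δ + S)) := by positivity
  rw [e1]
  linarith

/-- the slope: `2 K0 / M * D ≤ 8 A R` -/
lemma kk2 {M K0 D R : ℝ} (hMτ : M⁻¹ ≤ 2 * τ) (hK0 : 0 ≤ K0) (hD : 0 ≤ D)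
    (r4 : K0 * τ * D ≤ 2 * A * R) : 2 * K0 / M * D ≤ 8 * A * R := by
  have k1 : 2 * K0 / M ≤ 4 * (K0 * τ) := by
    rw [div_eq_mul_inv]
    have := mul_le_mul_of_nonneg_left hMτ (by positivity : 0 ≤ 2 * K0)
    linarith
  have := mul_le_mul_of_nonneg_right k1 hD
  linarith

lemma x1M_le {M K0 D R P l x1 : ℝ} (hA : 1 ≤ A) (hM0 : 0 < M)
    (hβ : 0 ≤ β) (hK0 : 0 ≤ K0) (hR0 : 0 ≤ R) (hD0 : 0 ≤ D)
    (hP1 : σ * P ≤ R) (hP2 : P ≤ D) (hl : l ≤ D / 2) (r3 : β * D ≤ R)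
    (k2 : 2 * K0 / M * D ≤ 8 * A * R)
    (hx1 : x1 = 2 * (A * σ * P + β * l) / M + 4 * K0 * (l + A * P) / M ^ 2) :
    x1 * M ≤ 27 * A ^ 2 * R := by
  have hA0 : 0 ≤ A := by linarith
  have k0 : 0 ≤ 2 * K0 / M := by positivity
  have e1 : x1 * M = 2 * (A * (σ * P) + β * l) + 2 * (2 * K0 / M * (l + A * P)) := by
    rw [hx1]; field_simp; ring
  have e3 : A * (σ * P) ≤ A * R := mul_le_mul_of_nonneg_left hP1 hA0
  have e4 : β * l ≤ R / 2 := by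
    have : β * l ≤ β * (D / 2) := mul_le_mul_of_nonneg_left hl hβ
    linarith
  have e5 : l + A * P ≤ 3 / 2 * A * D := by
    have h1 : A * P ≤ A * D := mul_le_mul_of_nonneg_left hP2 hA0
    have h3 : D / 2 ≤ A * (D / 2) := le_mul_of_one_le_left (by positivity) hA
    linarith
  have e6 : 2 * K0 / M * (l + A * P) ≤ 12 * A ^ 2 * R := by
    have h1 := mul_le_mul_of_nonneg_left e5 k0
    have h2 := mul_le_mul_of_nonneg_left k2 (by positivity : 0 ≤ 3 / 2 * A)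
    have h3 : 2 * K0 / M * (3 / 2 * A * D) = 3 / 2 * A * (2 * K0 / M * D) := by ring
    have h4 : 3 / 2 * A * (8 * A * R) = 12 * A ^ 2 * R := by ring
    linarith
  have e7 : R ≤ A ^ 2 * R := le_mul_of_one_le_left hR0 (one_le_pow₀ hA)
  have e8 : A * R ≤ A ^ 2 * R := by
    have : A ≤ A ^ 2 := by
      have := mul_le_mul_of_nonneg_left hA hA0
      linarith [pow_two A]
    exact mul_le_mul_of_nonneg_right this hR0
  rw [e1]
  linarith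

/-- the last sum -/
lemma last_sum {R x1 v1 vn CF P M K0 D G n1 n2 n3 : ℝ} (hA : 1 ≤ A) (hM0 : 0 < M)
    (hK0 : 0 ≤ K0) (hR0 : 0 ≤ R) (hCF : 0 ≤ CF)
    (hP1 : σ * P ≤ R) (hP2 : P ≤ D) (hG1 : σ * G ≤ R) (hG2 : G ≤ D)
    (k2 : 2 * K0 / M * D ≤ 8 * A * R) (hx1 : x1 ≤ 27 * A ^ 2 * R)
    (hv1 : v1 = A * σ * P + A * (2 * K0 / M) * P + A * x1)
    (hvn : vn = A * σ + A * (2 * K0 / M))
    (h1 : n1 ≤ 27 * A ^ 2 * R) (h2 : n2 ≤ 8 * A * R) (h3 : n3 ≤ R) :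
    n1 + n2 + n3 + 2 * v1 * CF + 2 * vn * (CF * G) ≤ 90 * A ^ 3 * (1 + CF) * R := by
  have hA0 : 0 ≤ A := by linarith
  have k0 : 0 ≤ 2 * K0 / M := by positivity
  have q1 : A ≤ A ^ 2 := by
    have := mul_le_mul_of_nonneg_left hA hA0
    linarith [pow_two A]
  have q2 : A ^ 2 ≤ A ^ 3 := by
    have := mul_le_mul_of_nonneg_left q1 hA0
    have e1 : A * A = A ^ 2 := by ring
    have e2 : A * A ^ 2 = A ^ 3 := by ring
    linarith
  have q3 : 1 ≤ A ^ 3 := one_le_pow₀ hA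
  have a1 : A ^ 2 * R ≤ A ^ 3 * R := mul_le_mul_of_nonneg_right q2 hR0
  have a2 : A * R ≤ A ^ 3 * R := mul_le_mul_of_nonneg_right (q1.trans q2) hR0
  have a3 : R ≤ A ^ 3 * R := le_mul_of_one_le_left hR0 q3
  have a4 : A * R ≤ A ^ 2 * R := mul_le_mul_of_nonneg_right q1 hR0
  have hv1' : v1 ≤ 36 * (A ^ 3 * R) := by
    have e3 : A * (σ * P) ≤ A * R := mul_le_mul_of_nonneg_left hP1 hA0
    have e4 : A * (2 * K0 / M * P) ≤ A * (8 * A * R) :=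
      mul_le_mul_of_nonneg_left ((mul_le_mul_of_nonneg_left hP2 k0).trans k2) hA0
    have e5 : A * x1 ≤ A * (27 * A ^ 2 * R) := mul_le_mul_of_nonneg_left hx1 hA0
    have e6 : v1 = A * (σ * P) + A * (2 * K0 / M * P) + A * x1 := by rw [hv1]; ring
    have e7 : A * (8 * A * R) = 8 * (A ^ 2 * R) := by ring
    have e8 : A * (27 * A ^ 2 * R) = 27 * (A ^ 3 * R) := by ring
    rw [e6]
    linarith
  have hvn' : vn * G ≤ 9 * (A ^ 2 * R) := by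
    have e1 : A * (σ * G) ≤ A * R := mul_le_mul_of_nonneg_left hG1 hA0
    have e3 : A * (2 * K0 / M * G) ≤ A * (8 * A * R) :=
      mul_le_mul_of_nonneg_left ((mul_le_mul_of_nonneg_left hG2 k0).trans k2) hA0
    have e6 : vn * G = A * (σ * G) + A * (2 * K0 / M * G) := by rw [hvn]; ring
    have e7 : A * (8 * A * R) = 8 * (A ^ 2 * R) := by ring
    rw [e6]
    linarith
  have c1 : v1 * CF ≤ 36 * (A ^ 3 * R) * CF := mul_le_mul_of_nonneg_right hv1' hCF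
  have c2 : vn * G * CF ≤ 9 * (A ^ 2 * R) * CF := mul_le_mul_of_nonneg_right hvn' hCF
  have c3 : A ^ 2 * R * CF ≤ A ^ 3 * R * CF := mul_le_mul_of_nonneg_right a1 hCF
  have e : 90 * A ^ 3 * (1 + CF) * R = 90 * (A ^ 3 * R) + 90 * (A ^ 3 * R * CF) := by ring
  have e' : 2 * vn * (CF * G) = 2 * (vn * G * CF) := by ring
  have e2 : 2 * v1 * CF = 2 * (v1 * CF) := by ring
  have b1 : 27 * A ^ 2 * R = 27 * (A ^ 2 * R) := by ring
  have b2 : 8 * A * R = 8 * (A * R) := by ring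
  rw [b1] at h1
  rw [b2] at h2
  rw [e, e', e2]
  have hA3R : 0 ≤ A ^ 3 * R := by positivity
  linarith

/-- the real inequality behind `est_main` -/
lemma real_core {P l M K0 x1 v1 vn CF n1 n2 n3 : ℝ} (hA : 1 ≤ A) (hσ : 0 ≤ σ)
    (hs : 0 ≤ s) (hβ : 0 ≤ β) (hτ : 0 < τ) (hτ1 : τ ≤ 1) (hδ : 0 ≤ δ) (hX0 : 0 ≤ X) (hX1 : X ≤ 1)
    (ha : 0 ≤ a) (hY0 : 0 ≤ Y) (hY1 : Y ≤ 1) (hb : 0 ≤ b) (hP0 : 0 ≤ P)
    (hP : P ≤ δ + τ * (a + b)) (hl0 : 0 ≤ l) (hl : l ≤ (a + b) / 2) (hM : 2 * A ≤ M)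
    (hMτ : M⁻¹ ≤ 2 * τ) (hK0 : K0 = A * σ + s + 2 * β)
    (hx1 : x1 = 2 * (A * σ * P + β * l) / M + 4 * K0 * (l + A * P) / M ^ 2)
    (hv1 : v1 = A * σ * P + A * (2 * K0 / M) * P + A * x1)
    (hvn : vn = A * σ + A * (2 * K0 / M)) (hCF : 0 ≤ CF)
    (h1 : n1 ≤ x1 * M) (h2 : n2 ≤ 2 * K0 / M * (a + b)) (h3 : n3 ≤ β * (a + b)) :
    n1 + n2 + n3 + 2 * v1 * CF + 2 * vn * (CF * (δ + X * a + Y * b)) ≤
      90 * A ^ 3 * (1 + CF) * Rs σ s β τ δ X a Y b := by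
  have hM0 : 0 < M := by linarith
  have r0 := rr1 (s := s) (β := β) (τ := τ) (δ := δ) hσ hX0 ha hY0 hb
  have r2 := rr2 (X := X) (Y := Y) hσ hs hβ hτ hδ ha hb
  have r4 := rr4 hA hσ hs hβ hτ hτ1 hδ hX0 ha hY0 hb
  rw [← hK0] at r4
  set R := Rs σ s β τ δ X a Y b with hR
  set S := a + b with hS
  have hS0 : 0 ≤ S := by positivity
  have hτS : τ * S ≤ S := mul_le_of_le_one_left hS0 hτ1
  have u1 : 0 ≤ σ * (δ + τ * S) := by positivity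
  have u2 : 0 ≤ s * τ * (δ + S) := by positivity
  have u3 : 0 ≤ β * (δ + S) := by positivity
  have r1 : σ * (δ + τ * S) ≤ R := by linarith
  have r3 : β * (δ + S) ≤ R := by linarith
  have hR0 : 0 ≤ R := u3.trans r3
  have hK0n : 0 ≤ K0 := by rw [hK0]; positivity
  have k0 : 0 ≤ 2 * K0 / M := by positivity
  have k2 := kk2 hMτ hK0n (by positivity : 0 ≤ δ + S) r4
  have hP1 : σ * P ≤ R := (mul_le_mul_of_nonneg_left hP hσ).trans r1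
  have hP2 : P ≤ δ + S := by linarith
  have x1M := x1M_le hA hM0 hβ hK0n hR0 (by positivity : 0 ≤ δ + S) hP1 hP2 (by linarith) r3 k2 hx1
  have hx10 : 0 ≤ x1 := by rw [hx1]; positivity
  have hx1' : x1 ≤ 27 * A ^ 2 * R := by
    have h1 : (1 : ℝ) ≤ M := by linarith
    exact (le_mul_of_one_le_right hx10 h1).trans x1M
  have hXa : X * a ≤ a := mul_le_of_le_one_left ha hX1
  have hYb : Y * b ≤ b := mul_le_of_le_one_left hb hY1
  have t2 : n2 ≤ 8 * A * R :=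
    h2.trans ((mul_le_mul_of_nonneg_left (by linarith) k0).trans k2)
  have t3 : n3 ≤ R := h3.trans ((mul_le_mul_of_nonneg_left (by linarith) hβ).trans r3)
  exact last_sum hA hM0 hK0n hR0 hCF hP1 hP2 r2 (by linarith) k2 hx1' hv1 hvn (h1.trans x1M) t2 t3

end real

variable {Q : Type*} [NormedAddCommGroup Q] [NormedSpace ℝ Q] {D : Dat Q} {p₀ : Q}

section family

variable {E : Type*} [NormedAddCommGroup E] [NormedSpace ℝ E] {p : E → Q} {M φ : E → ℝ}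
  {L : E → ℂ} {F : E → ℂ × ℂ}
  {p' : E →L[ℝ] Q} {M' φ' : E →L[ℝ] ℝ} {L' : E →L[ℝ] ℂ} {F' : E →L[ℝ] ℂ × ℂ}
  {t : E} {h : D.Ok p₀} {A σ s β : ℝ} {ξ : Fin 6 → ℝ}

/-- **The bound of the derivative of the neck potential.** -/
theorem est_main (hb : Bds h A (p t)) (hs : Sz ξ h A σ s β (p t)) (hM : 2 * A ≤ M t)
    (hφ : |φ t| ≤ 6) (dp : HasFDerivAt p p' t) (dM : HasFDerivAt M M' t)
    (dφ : HasFDerivAt φ φ' t) (dL : HasFDerivAt L L' t) (dF : HasFDerivAt F F' t)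
    (hσ : 0 ≤ σ) {CF τ d X Y : ℝ} (hCF : ‖F t‖ ≤ CF) (hτ : 0 < τ) (hτ1 : τ ≤ 1)
    (hMτ : (M t)⁻¹ ≤ 2 * τ) (hd : d ≤ 2 * τ) (hX0 : 0 ≤ X) (hX1 : X ≤ 1)
    (hY0 : 0 ≤ Y) (hY1 : Y ≤ 1) (hLM : |(L t).re + M t| ≤ M t) :
    ∃ U' : E →L[ℝ] ℝ, HasFDerivAt (fun t => Un h ξ (p t) (M t) (φ t) (L t) (F t)) U' t ∧
      ∀ (w : E) (δ : ℝ) (lX lY : ℂ), 0 ≤ δ → ‖p' w‖ ≤ δ + d * ‖(lX + lY) / 2‖ → L' w = lX →
        M' w = -((lX + lY) / 2).re → φ' w = ((lX + lY) / 2).im →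
        ‖F' w‖ ≤ CF * (δ + X * ‖lX‖ + Y * ‖lY‖) →
        |U' w| ≤ 90 * A ^ 3 * (1 + CF) * Rs σ s β τ δ X ‖lX‖ Y ‖lY‖ := by
  obtain ⟨U', x', v', dU, hx', hv', -, hU'⟩ := hasFDerivAt_Un hb hs hM hφ dp dM dφ dL dF
  refine ⟨U', dU, fun w δ lX lY hδ hp hL hMw hφw hF => ?_⟩
  have hA := hb.A1
  have hM0 : 0 < M t := by linarith
  have hβ : 0 ≤ β := (abs_nonneg _).trans hs.b
  have hs0 : 0 ≤ s := (abs_nonneg _).trans hs.s
  have hCF0 : 0 ≤ CF := (norm_nonneg _).trans hCF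
  have hxs := xs_le hb hs hM hφ
  have hvs := (hasFDerivAt_vs hb hs hM hφ dp dM dφ).1
  set lam := (lX + lY) / 2 with hlam
  have hlamn : ‖lam‖ ≤ (‖lX‖ + ‖lY‖) / 2 := by
    rw [hlam, norm_div]
    have := norm_add_le lX lY
    simp only [RCLike.norm_ofNat]
    linarith
  have hMabs : |M' w| ≤ ‖lam‖ := by rw [hMw, abs_neg]; exact abs_re_le_norm _
  have hφabs : |φ' w| ≤ ‖lam‖ := by rw [hφw]; exact abs_im_le_norm _
  have hdif : lX - lam = (lX - lY) / 2 := by rw [hlam]; ring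
  have hdifn : ‖lX - lam‖ ≤ (‖lX‖ + ‖lY‖) / 2 := by
    rw [hdif, norm_div]
    have := norm_sub_le lX lY
    simp only [RCLike.norm_ofNat]
    linarith
  have hPτ : ‖p' w‖ ≤ δ + τ * (‖lX‖ + ‖lY‖) := by
    have h1 : d * ‖lam‖ ≤ 2 * τ * ((‖lX‖ + ‖lY‖) / 2) :=
      (mul_le_mul_of_nonneg_right hd (norm_nonneg _)).trans
        (mul_le_mul_of_nonneg_left hlamn (by positivity))
    linarith
  set K0 := A * σ + s + 2 * β with hK0
  have hK0n : 0 ≤ K0 := by positivity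
  set x1 := 2 * (A * σ * ‖p' w‖ + β * ‖lam‖) / M t + 4 * K0 * (‖lam‖ + A * ‖p' w‖) / M t ^ 2
    with hx1
  have hx1n : |x' w| ≤ x1 := by
    refine (hx' w).trans ?_
    rw [hx1]
    refine add_le_add ?_ ?_
    · refine div_le_div_of_nonneg_right ?_ hM0.le
      have := mul_le_mul_of_nonneg_left hφabs hβ
      linarith
    · refine div_le_div_of_nonneg_right ?_ (by positivity)
      exact mul_le_mul_of_nonneg_left (by linarith) (by positivity)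
  have hv1n : ‖v' w‖ ≤ A * σ * ‖p' w‖ + A * (2 * K0 / M t) * ‖p' w‖ + A * x1 := by
    refine (hv' w).trans ?_
    have h1 : 2 * (A * σ * ‖p' w‖ + β * |φ' w|) / M t +
        4 * K0 * (|M' w| + A * ‖p' w‖) / (M t) ^ 2 ≤ x1 := by
      rw [hx1]
      refine add_le_add ?_ ?_
      · refine div_le_div_of_nonneg_right ?_ hM0.le
        have := mul_le_mul_of_nonneg_left hφabs hβ
        linarith
      · refine div_le_div_of_nonneg_right ?_ (by positivity)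
        exact mul_le_mul_of_nonneg_left (by linarith) (by positivity)
    have h2 := mul_le_mul_of_nonneg_left h1 (by linarith : 0 ≤ A)
    linarith
  have g1 : |x' w * ((L t).re + M t)| ≤ x1 * M t := by
    rw [abs_mul]
    exact mul_le_mul hx1n hLM (abs_nonneg _) ((abs_nonneg _).trans hx1n)
  have g2 : |xs h (p t) (M t) (φ t) ξ * ((L' w).re + M' w)| ≤
      2 * K0 / M t * (‖lX‖ + ‖lY‖) := by
    rw [abs_mul]
    refine mul_le_mul hxs ?_ (abs_nonneg _) (by positivity)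
    have : (L' w).re + M' w = (lX - lam).re := by rw [hL, hMw, sub_re]; ring
    rw [this]
    have h1 := abs_re_le_norm (lX - lam)
    have h2 : 0 ≤ ‖lX‖ + ‖lY‖ := by positivity
    linarith
  have g3 : |(ξ D.i1 - ξ D.i0) / π * ((L' w).im - φ' w)| ≤ β * (‖lX‖ + ‖lY‖) := by
    rw [abs_mul, abs_div, abs_of_pos Real.pi_pos]
    have h0 : |ξ D.i1 - ξ D.i0| / π ≤ β := by
      rw [div_le_iff₀ Real.pi_pos]
      have := hs.b
      nlinarith [Real.pi_gt_three]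
    refine mul_le_mul h0 ?_ (abs_nonneg _) hβ
    have : (L' w).im - φ' w = (lX - lam).im := by rw [hL, hφw, sub_im]
    rw [this]
    have h1 := abs_im_le_norm (lX - lam)
    have h2 : 0 ≤ ‖lX‖ + ‖lY‖ := by positivity
    linarith
  have g4 : |(dot (v' w) (F t) + dot (vs h (p t) (M t) (φ t) ξ) (F' w)).re| ≤
      2 * (A * σ * ‖p' w‖ + A * (2 * K0 / M t) * ‖p' w‖ + A * x1) * CF +
      2 * (A * σ + A * (2 * K0 / M t)) * (CF * (δ + X * ‖lX‖ + Y * ‖lY‖)) := by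
    rw [add_re]
    refine (abs_add_le _ _).trans (add_le_add ?_ ?_)
    · refine (abs_dot_re_le _ _).trans ?_
      exact mul_le_mul (mul_le_mul_of_nonneg_left hv1n (by norm_num)) hCF (norm_nonneg _)
        (by have := (norm_nonneg _).trans hv1n; positivity)
    · refine (abs_dot_re_le _ _).trans ?_
      exact mul_le_mul (mul_le_mul_of_nonneg_left hvs (by norm_num)) hF (norm_nonneg _)
        (by have := (norm_nonneg _).trans hvs; positivity)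
  have key := real_core (X := X) (Y := Y) hA hσ hs0 hβ hτ hτ1 hδ hX0 hX1 (norm_nonneg lX) hY0 hY1
    (norm_nonneg lY) (norm_nonneg (p' w)) hPτ (norm_nonneg lam) hlamn hM hMτ hK0 hx1 rfl rfl
    hCF0 g1 g2 g3
  refine le_trans ?_ key
  rw [hU' w]
  have b1 := abs_add_le (x' w * ((L t).re + M t) +
        xs h (p t) (M t) (φ t) ξ * ((L' w).re + M' w) -
        (ξ D.i1 - ξ D.i0) / π * ((L' w).im - φ' w))
        ((dot (v' w) (F t) + dot (vs h (p t) (M t) (φ t) ξ) (F' w)).re)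
  have b2 := abs_sub (x' w * ((L t).re + M t) +
        xs h (p t) (M t) (φ t) ξ * ((L' w).re + M' w))
        ((ξ D.i1 - ξ D.i0) / π * ((L' w).im - φ' w))
  have b3 := abs_add_le (x' w * ((L t).re + M t))
        (xs h (p t) (M t) (φ t) ξ * ((L' w).re + M' w))
  linarith

end family

/-! ### the three types of classes -/

lemma Rs_T0 {n β τ δ X a Y b : ℝ} (hn : 0 ≤ n) (hβ : β ≤ 2 * n)
    (hτ1 : τ ≤ 1) (hδ : 0 ≤ δ) (hX1 : X ≤ 1) (ha : 0 ≤ a) (hY1 : Y ≤ 1) (hb : 0 ≤ b) :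
    Rs n n β τ δ X a Y b ≤ 5 * (n * (δ + a + b)) := by
  have hXa : X * a ≤ a := mul_le_of_le_one_left ha hX1
  have hYb : Y * b ≤ b := mul_le_of_le_one_left hb hY1
  have hτS : τ * (a + b) ≤ a + b := mul_le_of_le_one_left (by positivity) hτ1
  have hτD : τ * (δ + (a + b)) ≤ δ + (a + b) := mul_le_of_le_one_left (by positivity) hτ1
  have h1 : n * (δ + X * a + Y * b + τ * (a + b)) ≤ n * (2 * (δ + a + b)) :=
    mul_le_mul_of_nonneg_left (by linarith) hn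
  have h2 : n * τ * (δ + (a + b)) ≤ n * (δ + a + b) := by
    rw [mul_assoc]
    exact mul_le_mul_of_nonneg_left (by linarith) hn
  have h3 : β * (δ + (a + b)) ≤ 2 * n * (δ + (a + b)) :=
    mul_le_mul_of_nonneg_right hβ (by positivity)
  unfold Rs
  nlinarith

lemma Rs_T1 {n τ δ X a Y b : ℝ} (hn : 0 ≤ n)
    (hτ1 : τ ≤ 1) (hδ : 0 ≤ δ) (hX0 : 0 ≤ X) (ha : 0 ≤ a) (hY0 : 0 ≤ Y) (hb : 0 ≤ b) :
    Rs n n 0 τ δ X a Y b ≤ 2 * (n * (δ + (X + τ) * a + (Y + τ) * b)) := by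
  have hτD : τ * δ ≤ δ := mul_le_of_le_one_left hδ hτ1
  have e : Rs n n 0 τ δ X a Y b = n * (δ + (X + τ) * a + (Y + τ) * b) +
      n * (τ * δ + τ * a + τ * b) := by unfold Rs; ring
  rw [e]
  have h1 : n * (τ * δ + τ * a + τ * b) ≤ n * (δ + (X + τ) * a + (Y + τ) * b) := by
    refine mul_le_mul_of_nonneg_left ?_ hn
    have h2 : 0 ≤ X * a := by positivity
    have h3 : 0 ≤ Y * b := by positivity
    nlinarith
  linarith

lemma Rs_T2 {τ δ X a Y b : ℝ} : Rs 0 1 0 τ δ X a Y b = τ * (δ + a + b) := by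
  unfold Rs; ring

/-! ### the geometric form -/

/-- the elementary facts about a mark in the neck -/
lemma geo {c M : ℝ} {d X Y : ℂ} (hc : 0 < c) (hc1 : c ≤ 1) (hd : d ≠ 0)
    (hM : M = -Real.log ‖d‖) (hXY : X * Y = d ^ 2) (hX : ‖X‖ ≤ c) (hY : ‖Y‖ ≤ c)
    (hy : 1 ≤ 2 * Real.log (c / ‖d‖)) :
    0 < (2 * Real.log (c / ‖d‖))⁻¹ ∧ (2 * Real.log (c / ‖d‖))⁻¹ ≤ 1 ∧
      M⁻¹ ≤ 2 * (2 * Real.log (c / ‖d‖))⁻¹ ∧ ‖d‖ ≤ 2 * (2 * Real.log (c / ‖d‖))⁻¹ ∧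
      |Real.log ‖X‖ + M| ≤ Real.log (c / ‖d‖) ∧ Real.log (c / ‖d‖) ≤ M := by
  have hd0 : 0 < ‖d‖ := norm_pos_iff.2 hd
  have hlog : Real.log (c / ‖d‖) = Real.log c + M := by
    rw [Real.log_div hc.ne' hd0.ne', hM]; ring
  have hlc : Real.log c ≤ 0 := Real.log_nonpos hc.le hc1
  have hyM : Real.log (c / ‖d‖) ≤ M := by rw [hlog]; linarith
  set y := 2 * Real.log (c / ‖d‖) with hydef
  have hy0 : 0 < y := by linarith
  have hyM' : y ≤ 2 * M := by rw [hydef]; linarith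
  have hM0 : 0 < M := by linarith
  have hXYn : ‖X‖ * ‖Y‖ = ‖d‖ ^ 2 := by rw [← norm_mul, hXY, norm_pow]
  have hX0 : 0 < ‖X‖ := by
    rcases (norm_nonneg X).lt_or_eq with h1 | h1
    · exact h1
    · rw [← h1, zero_mul] at hXYn
      have : 0 < ‖d‖ ^ 2 := by positivity
      linarith
  have hY0 : 0 < ‖Y‖ := by
    rcases (norm_nonneg Y).lt_or_eq with h1 | h1
    · exact h1
    · rw [← h1, mul_zero] at hXYn
      have : 0 < ‖d‖ ^ 2 := by positivity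
      linarith
  refine ⟨inv_pos.2 hy0, inv_le_one_of_one_le₀ hy, ?_, ?_, ?_, hyM⟩
  · rw [← div_eq_mul_inv, inv_eq_one_div, div_le_div_iff₀ hM0 hy0]
    linarith
  · rw [← div_eq_mul_inv, le_div_iff₀ hy0]
    have h1 : Real.log (c / ‖d‖) ≤ c / ‖d‖ - 1 := Real.log_le_sub_one_of_pos (by positivity)
    have h2 : ‖d‖ * (c / ‖d‖) = c := mul_div_cancel₀ c hd0.ne'
    have h3 : ‖d‖ * y ≤ ‖d‖ * (2 * (c / ‖d‖)) := by
      refine mul_le_mul_of_nonneg_left ?_ hd0.le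
      rw [hydef]; linarith
    linarith
  · have h1 : Real.log ‖X‖ ≤ Real.log c := Real.log_le_log hX0 hX
    have h2 : Real.log ‖Y‖ ≤ Real.log c := Real.log_le_log hY0 hY
    have h3 : Real.log ‖X‖ + Real.log ‖Y‖ = -(2 * M) := by
      rw [← Real.log_mul hX0.ne' hY0.ne', hXYn, Real.log_pow, hM]
      push_cast; ring
    rw [abs_le, hlog]
    constructor <;> linarith

section family

variable {E : Type*} [NormedAddCommGroup E] [NormedSpace ℝ E] {p : E → Q} {M φ : E → ℝ}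
  {L : E → ℂ} {F : E → ℂ × ℂ}
  {p' : E →L[ℝ] Q} {M' φ' : E →L[ℝ] ℝ} {L' : E →L[ℝ] ℂ} {F' : E →L[ℝ] ℂ × ℂ}
  {t : E} {h : D.Ok p₀} {A : ℝ}

/-- **The three bounds of the neck potential.** `yl c d = 2 log (c / |d|)`. -/
theorem est_neck (hb : Bds h A (p t)) (ξ : Fin 6 → ℝ) (hM : 2 * A ≤ M t)
    (hφ : |φ t| ≤ 6) (dp : HasFDerivAt p p' t) (dM : HasFDerivAt M M' t)
    (dφ : HasFDerivAt φ φ' t) (dL : HasFDerivAt L L' t) (dF : HasFDerivAt F F' t)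
    {CF c : ℝ} {d X Y : ℂ} (hCF : ‖F t‖ ≤ CF) (hc : 0 < c) (hc1 : c ≤ 1) (hd : d ≠ 0)
    (hMd : M t = -Real.log ‖d‖) (hXY : X * Y = d ^ 2) (hX : ‖X‖ ≤ c) (hY : ‖Y‖ ≤ c)
    (hy : 1 ≤ 2 * Real.log (c / ‖d‖)) (hLX : (L t).re = Real.log ‖X‖) :
    ∃ U' : E →L[ℝ] ℝ, HasFDerivAt (fun t => Un h ξ (p t) (M t) (φ t) (L t) (F t)) U' t ∧
      ∀ (w : E) (δ : ℝ) (lX lY : ℂ), 0 ≤ δ → ‖p' w‖ ≤ δ + ‖d‖ * ‖(lX + lY) / 2‖ → L' w = lX →
        M' w = -((lX + lY) / 2).re → φ' w = ((lX + lY) / 2).im →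
        ‖F' w‖ ≤ CF * (δ + ‖X‖ * ‖lX‖ + ‖Y‖ * ‖lY‖) →
        |U' w| ≤ 450 * A ^ 3 * (1 + CF) * ‖ξ‖ * (δ + ‖lX‖ + ‖lY‖) ∧
        (ξ D.i0 = ξ D.i1 → |U' w| ≤ 450 * A ^ 3 * (1 + CF) * ‖ξ‖ *
          (δ + (‖X‖ + (2 * Real.log (c / ‖d‖))⁻¹) * ‖lX‖ +
            (‖Y‖ + (2 * Real.log (c / ‖d‖))⁻¹) * ‖lY‖)) ∧
        (ξ D.i0 = 1 → ξ D.i1 = 1 → (∀ j, j ≠ D.i0 → j ≠ D.i1 → ξ j = 0) →
          |U' w| ≤ 450 * A ^ 3 * (1 + CF) * (2 * Real.log (c / ‖d‖))⁻¹ * (δ + ‖lX‖ + ‖lY‖)) := by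
  obtain ⟨g1, g2, g3, g4, g5, g6⟩ := geo hc hc1 hd hMd hXY hX hY hy
  have hX1 : ‖X‖ ≤ 1 := hX.trans hc1
  have hY1 : ‖Y‖ ≤ 1 := hY.trans hc1
  have hLM : |(L t).re + M t| ≤ M t := by rw [hLX]; exact g5.trans g6
  have hA := hb.A1
  have hCF0 : 0 ≤ CF := (norm_nonneg _).trans hCF
  have hB : 0 ≤ A ^ 3 * (1 + CF) := by positivity
  obtain ⟨U', dU, hU⟩ := est_main hb (hb.sz ξ) hM hφ dp dM dφ dL dF (norm_nonneg ξ) hCF g1 g2 g3
    g4 (norm_nonneg X) hX1 (norm_nonneg Y) hY1 hLM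
  refine ⟨U', dU, fun w δ lX lY hδ hp hL hMw hφw hF => ⟨?_, fun he => ?_, fun h0 h1 h2 => ?_⟩⟩
  · have k1 := hU w δ lX lY hδ hp hL hMw hφw hF
    have hβ : |ξ D.i1 - ξ D.i0| ≤ 2 * ‖ξ‖ := by
      have a1 := norm_le_pi_norm ξ D.i0
      have a2 := norm_le_pi_norm ξ D.i1
      rw [Real.norm_eq_abs] at a1 a2
      have := abs_sub (ξ D.i1) (ξ D.i0)
      linarith
    have k2 := Rs_T0 (X := ‖X‖) (Y := ‖Y‖) (norm_nonneg ξ) hβ g2 hδ hX1 (norm_nonneg lX) hY1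
      (norm_nonneg lY)
    have k3 := mul_le_mul_of_nonneg_left k2 (by positivity : 0 ≤ 90 * A ^ 3 * (1 + CF))
    refine (k1.trans k3).trans (le_of_eq ?_)
    ring
  · obtain ⟨U2, dU2, hU2⟩ := est_main hb (β := 0)
      (⟨(hb.sz ξ).G, (hb.sz ξ).G', (hb.sz ξ).g, (hb.sz ξ).g', (hb.sz ξ).s, by rw [he]; simp⟩ :
        Sz ξ h A ‖ξ‖ ‖ξ‖ 0 (p t)) hM hφ dp dM dφ dL dF (norm_nonneg ξ) hCF g1 g2 g3
      g4 (norm_nonneg X) hX1 (norm_nonneg Y) hY1 hLM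
    have eU : U2 = U' := dU2.unique dU
    have k1 := hU2 w δ lX lY hδ hp hL hMw hφw hF
    rw [eU] at k1
    have k2 := Rs_T1 (X := ‖X‖) (Y := ‖Y‖) (norm_nonneg ξ) g2 hδ (norm_nonneg X)
      (norm_nonneg lX) (norm_nonneg Y) (norm_nonneg lY)
    have k3 := mul_le_mul_of_nonneg_left k2 (by positivity : 0 ≤ 90 * A ^ 3 * (1 + CF))
    refine (k1.trans k3).trans ?_
    set Z := ‖ξ‖ * (δ + (‖X‖ + (2 * Real.log (c / ‖d‖))⁻¹) * ‖lX‖ +
            (‖Y‖ + (2 * Real.log (c / ‖d‖))⁻¹) * ‖lY‖) with hZ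
    have hZ0 : 0 ≤ Z := by positivity
    have e1 : 90 * A ^ 3 * (1 + CF) * (2 * Z) = 180 * (A ^ 3 * (1 + CF) * Z) := by ring
    have e2 : 450 * A ^ 3 * (1 + CF) * ‖ξ‖ * (δ + (‖X‖ + (2 * Real.log (c / ‖d‖))⁻¹) * ‖lX‖ +
            (‖Y‖ + (2 * Real.log (c / ‖d‖))⁻¹) * ‖lY‖) = 450 * (A ^ 3 * (1 + CF) * Z) := by
      rw [hZ]; ring
    rw [e1, e2]
    have : 0 ≤ A ^ 3 * (1 + CF) * Z := by positivity
    linarith
  · obtain ⟨U2, dU2, hU2⟩ := est_main hb (hb.sz_alc h0 h1 h2) hM hφ dp dM dφ dL dF le_rfl hCF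
      g1 g2 g3 g4 (norm_nonneg X) hX1 (norm_nonneg Y) hY1 hLM
    have eU : U2 = U' := dU2.unique dU
    have k1 := hU2 w δ lX lY hδ hp hL hMw hφw hF
    rw [eU, Rs_T2] at k1
    refine k1.trans ?_
    set Z := (2 * Real.log (c / ‖d‖))⁻¹ * (δ + ‖lX‖ + ‖lY‖) with hZ
    have hZ0 : 0 ≤ Z := by positivity
    have e2 : 450 * A ^ 3 * (1 + CF) * (2 * Real.log (c / ‖d‖))⁻¹ * (δ + ‖lX‖ + ‖lY‖) =
        450 * (A ^ 3 * (1 + CF) * Z) := by rw [hZ]; ring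
    have e1 : 90 * A ^ 3 * (1 + CF) * Z = 90 * (A ^ 3 * (1 + CF) * Z) := by ring
    rw [e1, e2]
    have : 0 ≤ A ^ 3 * (1 + CF) * Z := by positivity
    linarith

end family

end

end Vale.Agent.P273.H996.NeckEst
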