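import Vale.Agent.P273.H598.Sol

/-!
# P273, row ASY1: the potential in the neck near one node, bounds of its derivative (helper996)

`Un` is `Re (a · (kap + L c + F)) + C` for the solution `(a, C)` of the linear system of
`H598.Sol`; `L` is the logarithm of the neck coordinate `X`, `F` the regular part.
-/

open Set Metric Filter Complex
open scoped Topology Real

namespace Vale.Agent.P273.H996.NeckEst

open Vale.Agent.P273.H598.Sol Vale.Agent.P273.H598.Sol.Dat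

noncomputable section

variable {Q : Type*} [NormedAddCommGroup Q] [NormedSpace ℝ Q] {D : Dat Q} {p₀ : Q}

/-- the potential in the neck -/
def Un (h : D.Ok p₀) (ξ : Fin 6 → ℝ) (p : Q) (M φ : ℝ) (L : ℂ) (F : ℂ × ℂ) : ℝ :=
  ξ D.i0 + xs h p M φ ξ * (L.re + M) - (ξ D.i1 - ξ D.i0) / π * (L.im - φ) +
    (dot (vs h p M φ ξ) F).re

/-- **The formula for the potential.** -/
theorem pot_eq (h : D.Ok p₀) {ξ : Fin 6 → ℝ} {p : Q} {M φ : ℝ} {v : ℂ × ℂ × ℝ}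
    (hv : v = vs h p M φ ξ)
    (hc : dot v (D.c p) = xs h p M φ ξ + (((ξ D.i1 - ξ D.i0) / π : ℝ) : ℂ) * I)
    (h0 : (dot v (D.kap p) + (-(M : ℂ) + φ * I) * dot v (D.c p)).re + v.2.2 = ξ D.i0)
    (L : ℂ) (F : ℂ × ℂ) :
    (dot v (D.kap p) + L * dot v (D.c p) + dot v F).re + v.2.2 = Un h ξ p M φ L F := by
  unfold Un
  rw [← hv]
  rw [hc] at h0 ⊢
  simp only [add_re, mul_re, neg_re, ofReal_re, I_re, I_im, ofReal_im, add_im,
    neg_im, mul_im, mul_zero, mul_one, sub_zero, zero_add, add_zero, neg_zero] at h0 ⊢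
  linear_combination h0

lemma norm_dot_le (v : ℂ × ℂ × ℝ) (c : ℂ × ℂ) : ‖dot v c‖ ≤ 2 * ‖v‖ * ‖c‖ := by
  unfold dot
  refine (norm_add_le _ _).trans ?_
  rw [norm_mul, norm_mul]
  have h1 : ‖v.1‖ ≤ ‖v‖ := norm_fst_le v
  have h2 : ‖v.2.1‖ ≤ ‖v‖ := (norm_fst_le v.2).trans (norm_snd_le v)
  have h3 : ‖c.1‖ ≤ ‖c‖ := norm_fst_le c
  have h4 : ‖c.2‖ ≤ ‖c‖ := norm_snd_le c
  have h5 := mul_le_mul h1 h3 (norm_nonneg _) (norm_nonneg _)
  have h6 := mul_le_mul h2 h4 (norm_nonneg _) (norm_nonneg _)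
  linarith

lemma abs_dot_re_le (v : ℂ × ℂ × ℝ) (c : ℂ × ℂ) : |(dot v c).re| ≤ 2 * ‖v‖ * ‖c‖ :=
  (abs_re_le_norm _).trans (norm_dot_le v c)

section family

variable {E : Type*} [NormedAddCommGroup E] [NormedSpace ℝ E] {p : E → Q} {M φ : E → ℝ}
  {L : E → ℂ} {F : E → ℂ × ℂ}
  {p' : E →L[ℝ] Q} {M' φ' : E →L[ℝ] ℝ} {L' : E →L[ℝ] ℂ} {F' : E →L[ℝ] ℂ × ℂ}
  {t : E} {h : D.Ok p₀} {A σ s β : ℝ} {ξ : Fin 6 → ℝ}

lemma hasFDerivAt_dot {v : E → ℂ × ℂ × ℝ} {v' : E →L[ℝ] ℂ × ℂ × ℝ} (dv : HasFDerivAt v v' t)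
    (dF : HasFDerivAt F F' t) : ∃ d' : E →L[ℝ] ℝ,
    HasFDerivAt (fun t => (dot (v t) (F t)).re) d' t ∧
      ∀ w, d' w = (dot (v' w) (F t) + dot (v t) (F' w)).re := by
  have a1 : HasFDerivAt (fun t => (v t).1) ((ContinuousLinearMap.fst ℝ ℂ (ℂ × ℝ)).comp v') t :=
    (ContinuousLinearMap.fst ℝ ℂ (ℂ × ℝ)).hasFDerivAt.comp t dv
  have a2 : HasFDerivAt (fun t => (v t).2.1)
      (((ContinuousLinearMap.fst ℝ ℂ ℝ).comp (ContinuousLinearMap.snd ℝ ℂ (ℂ × ℝ))).comp v') t :=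
    ((ContinuousLinearMap.fst ℝ ℂ ℝ).comp (ContinuousLinearMap.snd ℝ ℂ (ℂ × ℝ))).hasFDerivAt.comp
      t dv
  have b1 : HasFDerivAt (fun t => (F t).1) ((ContinuousLinearMap.fst ℝ ℂ ℂ).comp F') t :=
    (ContinuousLinearMap.fst ℝ ℂ ℂ).hasFDerivAt.comp t dF
  have b2 : HasFDerivAt (fun t => (F t).2) ((ContinuousLinearMap.snd ℝ ℂ ℂ).comp F') t :=
    (ContinuousLinearMap.snd ℝ ℂ ℂ).hasFDerivAt.comp t dF
  have c1 := (a1.mul b1).add (a2.mul b2)
  have c2 := reCLM.hasFDerivAt.comp t c1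
  refine ⟨_, c2, fun w => ?_⟩
  unfold dot
  simp
  ring

/-- **The derivative of the potential.** -/
theorem hasFDerivAt_Un (hb : Bds h A (p t)) (hs : Sz ξ h A σ s β (p t)) (hM : 2 * A ≤ M t)
    (hφ : |φ t| ≤ 6) (dp : HasFDerivAt p p' t) (dM : HasFDerivAt M M' t)
    (dφ : HasFDerivAt φ φ' t) (dL : HasFDerivAt L L' t) (dF : HasFDerivAt F F' t) :
    ∃ (U' x' : E →L[ℝ] ℝ) (v' : E →L[ℝ] ℂ × ℂ × ℝ),
      HasFDerivAt (fun t => Un h ξ (p t) (M t) (φ t) (L t) (F t)) U' t ∧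
      (∀ w, |x' w| ≤ 2 * (A * σ * ‖p' w‖ + β * |φ' w|) / M t +
        4 * (A * σ + s + 2 * β) * (|M' w| + A * ‖p' w‖) / (M t) ^ 2) ∧
      (∀ w, ‖v' w‖ ≤ A * σ * ‖p' w‖ + A * (2 * (A * σ + s + 2 * β) / M t) * ‖p' w‖ +
        A * (2 * (A * σ * ‖p' w‖ + β * |φ' w|) / M t +
        4 * (A * σ + s + 2 * β) * (|M' w| + A * ‖p' w‖) / (M t) ^ 2)) ∧
      (∀ w, x' w * (M t - mu h (p t)) +
        xs h (p t) (M t) (φ t) ξ * (M' w - fderiv ℝ (mu h) (p t) (p' w)) =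
        (fderiv ℝ (gaL h) (p t) (p' w)) ξ - (ξ D.i1 - ξ D.i0) / π * φ' w) ∧
      ∀ w, U' w = x' w * ((L t).re + M t) +
        xs h (p t) (M t) (φ t) ξ * ((L' w).re + M' w) -
        (ξ D.i1 - ξ D.i0) / π * ((L' w).im - φ' w) +
        (dot (v' w) (F t) + dot (vs h (p t) (M t) (φ t) ξ) (F' w)).re := by
  obtain ⟨x', dx, hx'⟩ := hasFDerivAt_xs hb hs hM hφ dp dM dφ
  obtain ⟨-, v', dv, hv'⟩ := hasFDerivAt_vs hb hs hM hφ dp dM dφ
  obtain ⟨d', dd, hd'⟩ := hasFDerivAt_dot dv dF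
  have hA := hb.A1
  have hm := abs_le.1 (show |mu h (p t)| ≤ A from hb.m.2.1)
  have hden0 : 0 < M t - mu h (p t) := by linarith [hm.2]
  have dre : HasFDerivAt (fun t => (L t).re) (reCLM.comp L') t := reCLM.hasFDerivAt.comp t dL
  have dim : HasFDerivAt (fun t => (L t).im) (imCLM.comp L') t := imCLM.hasFDerivAt.comp t dL
  have dU := (((dx.mul (dre.add dM)).const_add (ξ D.i0)).sub
    ((dim.sub dφ).const_mul ((ξ D.i1 - ξ D.i0) / π))).add dd
  refine ⟨_, x', v', dU, hx', hv', fun w => ?_, fun w => ?_⟩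
  · -- the product identity
    have dmu : HasFDerivAt (fun t => mu h (p t)) ((fderiv ℝ (mu h) (p t)).comp p') t :=
      hb.m.1.hasFDerivAt.comp t dp
    have dm := dM.sub dmu
    have dg : HasFDerivAt (fun t => ga h (p t) ξ)
        (((fderiv ℝ (gaL h) (p t)).comp p').flip ξ) t := by
      have h1 : HasFDerivAt (fun t => gaL h (p t)) ((fderiv ℝ (gaL h) (p t)).comp p') t :=
        hb.g.1.hasFDerivAt.comp t dp
      have h2 := h1.clm_apply (hasFDerivAt_const ξ t)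
      refine (h2.congr_fderiv ?_)
      ext w
      simp
    have dn := (dg.sub_const (ξ D.i0)).sub (dφ.const_mul ((ξ D.i1 - ξ D.i0) / π))
    have dprod := dx.mul dm
    have hev : ∀ᶠ u in 𝓝 t, M u - mu h (p u) ≠ 0 := by
      have hc : ContinuousAt (fun u => M u - mu h (p u)) t := dm.continuousAt
      exact hc.eventually_ne hden0.ne'
    have heq : (fun u => ga h (p u) ξ - ξ D.i0 - (ξ D.i1 - ξ D.i0) / π * φ u) =ᶠ[𝓝 t]
        fun u => xs h (p u) (M u) (φ u) ξ * (M u - mu h (p u)) := by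
      filter_upwards [hev] with u hu
      unfold xs
      rw [div_mul_cancel₀ _ hu]
    have huniq := (dn.congr_of_eventuallyEq heq.symm).unique dprod
    have := DFunLike.congr_fun huniq w
    simp only [sub_apply, ContinuousLinearMap.flip_apply,
      ContinuousLinearMap.coe_comp, Function.comp_apply, smul_apply,
      smul_eq_mul, add_apply, Pi.sub_apply] at this
    linarith
  · simp only [sub_apply, ContinuousLinearMap.coe_comp,
      Function.comp_apply, smul_apply, smul_eq_mul,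
      add_apply, hd', reCLM_apply, imCLM_apply, Pi.add_apply]
    ring

end family

end

end Vale.Agent.P273.H996.NeckEst
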